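import Vale.Agent.P248.Final

open MeasureTheory Vale.Agent.P248

theorem Vale.Agent.Results.P248.Symmetric.result (n : ℕ) (hn : 1 ≤ n) (K : Set (Fin n → ℝ))
    (hcompact : IsCompact K) (hconvex : Convex ℝ K) (hint : (interior K).Nonempty)
    (hsymm : ∀ x ∈ K, -x ∈ K) :
    (4 : ℝ) ^ n / (n.factorial : ℝ) ≤ (volume K).toReal * (volume (polar K)).toReal ∧
      ((volume K).toReal * (volume (polar K)).toReal = (4 : ℝ) ^ n / (n.factorial : ℝ) ↔
        ∃ H : Set (Fin n → ℝ), Hanner n H ∧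
          ∃ T : (Fin n → ℝ) ≃ₗ[ℝ] (Fin n → ℝ), K = T '' H) := by
  have hK : Body K := ⟨hcompact, hconvex, hint, hsymm⟩
  have hfin : volume K * volume (polar K) ≠ ⊤ :=
    ENNReal.mul_ne_top hK.volume_lt_top.ne hK.polar_body.volume_lt_top.ne
  have h0 : (0 : ℝ) ≤ 4 ^ n / (n.factorial : ℝ) := by positivity
  rw [← ENNReal.toReal_mul]
  refine ⟨(ENNReal.ofReal_le_iff_le_toReal hfin).1 (hK.mahler_le hn), ?_⟩
  rw [← hK.eq_iff hn]
  unfold Vale.Agent.P248.mahler
  constructor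
  · intro h
    rw [← h, ENNReal.ofReal_toReal hfin]
  · intro h
    rw [h, ENNReal.toReal_ofReal h0]
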